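import Vale.Agent.P129B.Sum

/-!
# The common kernel of finitely many linear functionals has finite codimension
-/

namespace Vale.Agent.P129B

universe v

variable {N : Type v} [ZM N] {K E : Type*} [Field K] [AddCommGroup E] [Module K E] [Coded N K]
  [Coded N E] [Tot N K] [Tot N E] [DefAdd N K] [DefMul N K] [DefAdd N E] [DefSMul N K E]

omit [DefAdd N K] in
/-- The common kernel of finitely many linear functionals has finite codimension. -/
theorem ker_fin_codim {f : NN N → E → K} (hf : DefF N fun p : NN N × E => f p.1 p.2)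
    (h1 : ∀ i x y, f i (x - y) = f i x - f i y) (h2 : ∀ i (c : K) x, f i (c • x) = c * f i x)
    (n : NN N) : ∃ (m : NN N) (v : NN N → E), Intl N v ∧ ∀ x, ∃ c : NN N → K, Intl N c ∧
      ∀ i, i < n → f i (x - isum (fun j => c j • v j) m) = 0 := by
  classical
  have : DefNeg N E := defNeg_of_add
  have : DefSub N E := defSub_of_neg
  refine NN.ind (P := fun n => ∃ m : NN N, ∃ v : NN N → E, Intl N v ∧ ∀ x, ∃ c : NN N → K,
    Intl N c ∧ ∀ i, i < n → f i (x - isum (fun j => c j • v j) m) = 0) (by fun_prop)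
    ⟨0, fun _ => 0, inferInstance, fun _ => ⟨fun _ => 0, inferInstance,
      fun j hj => absurd hj (NN.not_lt_zero' j)⟩⟩ ?_ n
  rintro n ⟨m, v, hv, H⟩
  by_cases h : ∃ y, (∀ i, i < n → f i y = 0) ∧ f n y ≠ 0
  · obtain ⟨y, y1, y2⟩ := h
    refine ⟨m + 1, fun j => if j < m then v j else y, DefF.toIntl (by fun_prop), fun x => ?_⟩
    obtain ⟨c, hc, e⟩ := H x
    refine ⟨fun j => if j < m then c j else f n (x - isum (fun j => c j • v j) m) / f n y,
      DefF.toIntl (by fun_prop), fun i hi => ?_⟩
    rw [isum_succ (by fun_prop), isum_congr (g := fun j => c j • v j) (by fun_prop) (by fun_prop)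
      fun i hi => by simp only [if_pos hi]]
    beta_reduce
    rw [if_neg (lt_irrefl m), if_neg (lt_irrefl m), sub_add_eq_sub_sub, h1, h2]
    rcases NN.lt_add_one_cases hi with a | rfl
    · rw [e i a, y1 i a, mul_zero, sub_zero]
    · rw [div_mul_cancel₀ _ y2, sub_self]
  · refine ⟨m, v, hv, fun x => (H x).imp fun c e => ⟨e.1, fun i hi => ?_⟩⟩
    rcases NN.lt_add_one_cases hi with a | rfl
    · exact e.2 i a
    · exact not_not.1 fun b => h ⟨_, e.2, b⟩

end Vale.Agent.P129B
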