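import Vale.Agent.P129BT.Core
import Vale.Agent.P129BT.Ker
import Vale.Agent.P129B.Real
import Vale.Agent.P129BZ.DualHB

/-!
# The weak theorem of Dvoretzky and Rogers inside a model
-/

namespace Vale.Agent.P129B

universe v

variable {N : Type v} [ZM N]
  {R : Type*} [Field R] [LinearOrder R] [IsStrictOrderedRing R] [Coded N R] [RF N R]
  {K : Type*} [Field K] [Algebra R K] [Nm K R] [KA R K] [Coded N K] [KF N R K]
  {E : Type*} [AddCommGroup E] [Module K E] [Nm E R] [NA R K E] [Coded N E] [NS N R K E]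

/-- Finitely many functionals have a common nonzero zero. -/
theorem exists_common_zero (hE : ¬ ∃ (n : NN N) (v : NN N → E), Intl N v ∧ ∀ x : E,
      ∃ c : NN N → K, Intl N c ∧ x - isum (fun i => c i • v i) n ∈ ({0} : Set E))
    (F : NN N → Dual N K E) [Intl N F] (n : NN N) : ∃ x : E, x ≠ 0 ∧ ∀ i, i < n → F i x = 0 := by
  obtain ⟨m, v, hv, H⟩ := ker_fin_codim (N := N) (f := fun i x => F i x) (by fun_prop)
    (fun i => map_sub (F i)) (fun i => (F i).smul_arg) n
  by_contra h
  exact hE ⟨m, v, hv, fun x => (H x).imp fun c e =>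
    ⟨e.1, not_not.1 fun b => h ⟨_, b, e.2⟩⟩⟩

/-- Many functionals of norm one with small Euclidean means. -/
theorem weak_dr (hE : ¬ ∃ (n : NN N) (v : NN N → E), Intl N v ∧ ∀ x : E,
      ∃ c : NN N → K, Intl N c ∧ x - isum (fun i => c i • v i) n ∈ ({0} : Set E))
    {η : R} (hη : 0 < η) : ∃ (M : NN N) (F : NN N → Dual N K E), 0 < M ∧ Intl N F ∧
      (∀ j, j < M → nm (F j) = 1) ∧
      ∀ x, isum (fun j => nm (F j x) ^ 2) M ≤ η * rc R M * nm x ^ 2 := by
  letI : Module R (Dual N K E) := Module.compHom _ (algebraMap R K)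
  have sm : ∀ (t : R) (u : Dual N K E), t • u = algebraMap R K t • u := fun _ _ => rfl
  have : DefSMul N R (Dual N K E) := ⟨by simp only [sm]; fun_prop⟩
  have h : Te.Ev N (fun x : E => nm x ≤ 1) (fun (u : Dual N K E) x => KA.re (u x)) nm :=
    ⟨by fun_prop, by fun_prop, by fun_prop, fun f g x => map_add _ _ _,
      fun t f x => KA.re_ofR_mul _ _, fun t f => nm_ofR_smul t f,
      fun f x hx => (KA.abs_re_le_nm _).trans (f.le_nm_of_le_one hx), ⟨0, by simp⟩,
      fun n F hF => by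
        obtain ⟨x, x0, hx⟩ := exists_common_zero hE F n
        obtain ⟨u, hu⟩ := not_forall.1 (mt (eq_zero_of_forall_dual (N := N) (K := K)) x0)
        refine ⟨u, fun c hc e => hu ?_⟩
        rw [sub_eq_zero.1 (nm_eq_zero.1 e), Dual.isum_apply (by fun_prop)]
        exact isum_eq_zero (by fun_prop) fun i hi => by rw [sm, Dual.smul_apply, hx i hi, mul_zero]⟩
  obtain ⟨M, F, h0, hF, h1, h2⟩ := h.te (rcHom R) (by show DefF N (rc R); fun_prop)
    (fun t ht => by
      obtain ⟨k, k1, k2⟩ := exists_floor N ht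
      exact ⟨k + 1, k2.le.trans_eq (rc_succ R k).symm,
        (rc_succ R k).trans_le (add_le_add_left k1 1)⟩) rc_nonneg (half_pos hη)
  have h3 : ∀ x : E, nm x ≤ 1 → isum (fun j => nm (F j x) ^ 2) M ≤ η * rc R M := fun x hx => by
    have a := h2 (KA.I • x) ((nm_smul _ _).trans_le (mul_le_one₀ KA.nm_I_le (nm_nonneg _) hx))
    simp only [Dual.smul_arg, KA.re_I_mul, neg_sq] at a
    simp only [KA.nm_sq]
    rw [isum_add (by fun_prop) (by fun_prop)]
    exact (add_le_add (h2 x hx) a).trans_eq (by rw [← add_mul, add_halves]; rfl)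
  refine ⟨M, F, h0, hF, h1, fun x => ?_⟩
  rcases eq_or_ne x 0 with rfl | x0
  · simp
  have a := h3 _ (nm_normalize (K := K) x0).le
  have b := nm_pos_iff.2 x0
  simp only [Dual.smul_arg, KA.nm_mul, KA.nm_ofR_of_nonneg (inv_nonneg.2 b.le), mul_pow] at a
  rwa [← mul_isum _ (by fun_prop), inv_pow, inv_mul_le_iff₀' (by positivity)] at a

end Vale.Agent.P129B
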