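import Vale.Agent.P129BT.Mean
import Vale.Agent.P129B.Sum
import Vale.Agent.P129BZ.Cls

/-!
# The weak theorem of Dvoretzky and Rogers: the real core
-/

namespace Vale.Agent.P129B

universe v

variable {N : Type v} [ZM N] {R : Type*} [Field R] [LinearOrder R] [IsStrictOrderedRing R]
  [Coded N R] [RF N R] {X D : Type*} [Coded N X] [Tot N X] [AddCommGroup D] [Module R D]
  [Coded N D] [Tot N D] [DefAdd N D] [DefSMul N R D]

namespace Te

variable (N) in
/-- A real space `D` of functions on `X` with a norm which dominates the values on `B`. -/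
structure Ev (B : X → Prop) (a : D → X → R) (ν : D → R) : Prop where
  dB : DefF N B
  da : DefF N fun p : D × X => a p.1 p.2
  dν : DefF N ν
  add : ∀ f g x, a (f + g) x = a f x + a g x
  smul : ∀ (t : R) f x, a (t • f) x = t * a f x
  nsm : ∀ (t : R) f, ν (t • f) = |t| * ν f
  le : ∀ f x, B x → |a f x| ≤ ν f
  ne : ∃ x, B x
  inf : ∀ (n : NN N) (F : NN N → D), Intl N F → ∃ g, ∀ c : NN N → R, Intl N c →
    ν (g - isum (fun i => c i • F i) n) ≠ 0

variable (N) in
/-- A definable symmetric bilinear form which is equivalent to the norm. -/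
structure Ip (ν : D → R) (ε : R) (β : D → D → R) : Prop where
  d : DefF N fun p : D × D => β p.1 p.2
  add : ∀ f g h, β (f + g) h = β f h + β g h
  smul : ∀ (t : R) f h, β (t • f) h = t * β f h
  comm : ∀ f g, β f g = β g f
  lo : ∀ f, ν f = 1 → ε ≤ β f f
  up : ∀ f, ν f = 1 → β f f ≤ 1

variable {B : X → Prop} {a : D → X → R} {ν : D → R} {ε : R} {β : D → D → R}

theorem Ev.unit (h : Ev N B a ν) {f : D} (hf : ν f ≠ 0) : ν ((ν f)⁻¹ • f) = 1 := by
  obtain ⟨x, hx⟩ := h.ne
  rw [h.nsm, abs_of_nonneg (inv_nonneg.2 ((abs_nonneg _).trans (h.le f x hx))),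
    inv_mul_cancel₀ hf]

theorem lin_isum {φ : D → R} (d : DefF N φ) (h1 : ∀ f g, φ (f + g) = φ f + φ g)
    (h2 : ∀ (t : R) f, φ (t • f) = t * φ f) (c : NN N → R) (F : NN N → D) [Intl N c] [Intl N F]
    (n : NN N) : φ (isum (fun i => c i • F i) n) = isum (fun i => c i * φ (F i)) n := by
  rw [map_isum' d (by simpa using h2 0 0) h1 (by fun_prop)]
  simp only [h2]

theorem Ip.orth (k : Ip N ν ε β) (c : NN N → R) {F : NN N → D} [Intl N c] [Intl N F] {n j : NN N}
    (o : ∀ i, i < n → ∀ j, j < n → i ≠ j → β (F i) (F j) = 0) (hj : j < n) :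
    β (isum (fun i => c i • F i) n) (F j) = c j * β (F j) (F j) := by
  have := k.d
  rw [lin_isum (φ := (β · (F j))) (by fun_prop) (k.add · · _) (k.smul · · _)]
  exact isum_single (f := fun i => c i * β (F i) (F j)) (by fun_prop) hj fun i hi e => by
    rw [o i hi j hj e, mul_zero]

/-- Gram-Schmidt. -/
theorem Ip.gs (k : Ip N ν ε β) (h : Ev N B a ν) (hε : 0 < ε) (n : NN N) :
    ∃ F : NN N → D, Intl N F ∧ (∀ j, j < n → ν (F j) = 1) ∧
      ∀ i, i < n → ∀ j, j < n → i ≠ j → β (F i) (F j) = 0 := by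
  classical
  have := k.d
  have := h.dν
  refine NN.ind (P := fun n => ∃ F : NN N → D, Intl N F ∧ (∀ j, j < n → ν (F j) = 1) ∧
    ∀ i, i < n → ∀ j, j < n → i ≠ j → β (F i) (F j) = 0) (by fun_prop)
    ⟨fun _ => 0, inferInstance, fun j hj => absurd hj (NN.not_lt_zero' j),
      fun j hj => absurd hj (NN.not_lt_zero' j)⟩ ?_ n
  rintro n ⟨F, hF, h1, h2⟩
  obtain ⟨g, hg⟩ := h.inf n F hF
  have hc : Intl N fun j => β g (F j) / β (F j) (F j) := DefF.toIntl (by fun_prop)
  have h3 := h.unit (hg _ hc)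
  have h4 : ∀ j, j < n →
      β (g - isum (fun i => (β g (F i) / β (F i) (F i)) • F i) n) (F j) = 0 := fun j hj => by
    rw [sub_eq_add_neg, ← neg_one_smul R, k.add, k.smul, k.orth _ h2 hj,
      div_mul_cancel₀ _ (hε.trans_le (k.lo _ (h1 j hj))).ne']
    ring
  generalize g - isum (fun i => (β g (F i) / β (F i) (F i)) • F i) n = w at h3 h4
  refine ⟨fun i => if i < n then F i else (ν w)⁻¹ • w, DefF.toIntl (by fun_prop), fun j _ => ?_,
    fun i hi j hj e => ?_⟩ <;> beta_reduce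
  · split_ifs with c
    exacts [h1 j c, h3]
  · split_ifs with c d d
    · exact h2 i c j d e
    · rw [k.comm, k.smul, h4 i c, mul_zero]
    · rw [k.smul, h4 j d, mul_zero]
    · exact absurd (((NN.lt_add_one_cases hi).resolve_left c).trans
        ((NN.lt_add_one_cases hj).resolve_left d).symm) e

/-- Bessel. -/
theorem Ip.bessel (k : Ip N ν ε β) (h : Ev N B a ν) (hε : 0 < ε) {n : NN N} {F : NN N → D}
    [Intl N F] (h1 : ∀ j, j < n → ν (F j) = 1)
    (h2 : ∀ i, i < n → ∀ j, j < n → i ≠ j → β (F i) (F j) = 0) {x : X} (hx : B x) :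
    ε * isum (fun j => a (F j) x ^ 2) n ≤ 1 := by
  have := k.d
  have := h.da
  have hc : Intl N fun j => a (F j) x := DefF.toIntl (by fun_prop)
  obtain ⟨g, hg⟩ : ∃ g, g = isum (fun i => a (F i) x • F i) n := ⟨_, rfl⟩
  have h3 : a g x = isum (fun j => a (F j) x ^ 2) n := by
    rw [hg, lin_isum (φ := (a · x)) (by fun_prop) (h.add · · _) (h.smul · · _)]
    simp only [sq]
  have h4 : β g g ≤ isum (fun j => a (F j) x ^ 2) n := by
    nth_rewrite 1 [hg]
    rw [lin_isum (φ := (β · g)) (by fun_prop) (k.add · · _) (k.smul · · _)]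
    refine isum_le_isum (by fun_prop) (by fun_prop) fun i hi => ?_
    rw [k.comm, hg, k.orth _ h2 hi, ← mul_assoc, ← sq]
    exact mul_le_of_le_one_right (sq_nonneg _) (k.up _ (h1 i hi))
  have h5 := h.le g x hx
  rw [← h3] at h4 ⊢
  by_cases h6 : ν g = 0
  · rw [abs_nonpos_iff.1 (h5.trans_eq h6), mul_zero]
    exact zero_le_one
  have h7 := k.lo _ (h.unit h6)
  rw [k.smul, k.comm, k.smul, ← mul_assoc, ← mul_inv,
    le_inv_mul_iff₀ (mul_self_pos.2 h6)] at h7
  have h8 := abs_le_abs (b := ν g) (le_of_abs_le h5) (neg_le.1 (neg_le_of_abs_le h5))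
  rw [← sq_le_sq] at h8
  by_contra h9
  have h10 : 0 < a g x := (mul_pos_iff_of_pos_left hε).1 (zero_lt_one.trans (not_le.1 h9))
  nlinarith

theorem Ev.ip (h : Ev N B a ν) (H : ∀ (n : NN N) (t : NN N → R) (F : NN N → D), Intl N t →
    Intl N F → (∀ j, j < n → 0 ≤ t j ∧ ν (F j) = 1) →
    ∃ x, B x ∧ 0 ≤ isum (fun j => t j * (a (F j) x ^ 2 - ε)) n) : ∃ β, Ip N ν ε β := by
  classical
  have := h.da
  have := h.dν
  obtain ⟨L, l1, l2, l3, l4⟩ := exists_mean (N := N) RF.lub h.dB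
    (C := fun u => ∃ (n : NN N), ∃ t : NN N → R, Intl N t ∧ ∃ F : NN N → D, Intl N F ∧
      (∀ j, j < n → 0 ≤ t j ∧ ν (F j) = 1) ∧
      ∀ x, u x = isum (fun j => t j * (a (F j) x ^ 2 - ε)) n) (by fun_prop)
    ⟨0, fun _ => 0, inferInstance, fun _ => 0, inferInstance,
      fun j hj => absurd hj (NN.not_lt_zero' j), fun _ => (isum_zero _).symm⟩
    (fun u w _ _ ⟨n, t, _, F, _, c, e⟩ ⟨m, s, _, G, _, d, e'⟩ =>
      ⟨n + m, fun j => if j < n then t j else s (j - n), DefF.toIntl (by fun_prop),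
        fun j => if j < n then F j else G (j - n), DefF.toIntl (by fun_prop), fun j hj => by
          beta_reduce
          split_ifs with b
          exacts [c j b, d _ ((tsub_lt_iff_left (not_lt.1 b)).2 hj)], fun x => by
        beta_reduce
        rw [isum_add_range (by fun_prop), e, e']
        congr 1
        · exact isum_congr (by fun_prop) (by fun_prop) fun i hi => by simp only [if_pos hi]
        · simp only [if_neg (not_lt.2 le_self_add), add_tsub_cancel_left]⟩)
    (fun r u hr _ ⟨n, t, _, F, hF, c, e⟩ => ⟨n, fun j => r * t j, DefF.toIntl (by fun_prop), F, hF,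
      fun j hj => ⟨mul_nonneg hr.le (c j hj).1, (c j hj).2⟩, fun x => by
        beta_reduce
        rw [e, mul_isum _ (by fun_prop)]
        simp only [mul_assoc]⟩)
    fun u _ ⟨n, t, ht, F, hF, c, e⟩ => by simpa only [e] using H n t F ht hF c
  have bd : ∀ f g, BdOn N B fun x => a f x * a g x := fun f g =>
    ⟨DefF.toIntl (by fun_prop), ν f * ν g, fun x hx => (abs_mul _ _).trans_le
      (mul_le_mul (h.le f x hx) (h.le g x hx) (abs_nonneg _)
        ((abs_nonneg _).trans (h.le f x hx)))⟩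
  refine ⟨fun f g => L fun x => a f x * a g x, by fun_prop, fun f g k => ?_, fun t f k => ?_,
    fun f g => by simp only [mul_comm], fun f hf => ?_, fun f hf => ?_⟩
  · simp only [h.add, add_mul]
    exact l2 _ _ (bd f k) (bd g k)
  · simp only [h.smul, mul_assoc]
    exact l3 _ _ (bd f k)
  · have := l4 _ ((bd f f).mul (-1)) (fun x => 1 * (a f x ^ 2 - ε)) (DefF.toIntl (by fun_prop))
      ⟨1, fun _ => 1, inferInstance, fun _ => f, inferInstance, fun _ _ => ⟨zero_le_one, hf⟩,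
        fun x => (isum_one (f := fun _ => 1 * (a f x ^ 2 - ε)) (by fun_prop)).symm⟩ (-ε)
      fun x _ => le_of_eq (by ring)
    rw [l3 _ _ (bd f f)] at this
    linarith
  · refine l4 _ (bd f f) (fun _ => 0) inferInstance ⟨0, fun _ => 0, inferInstance, fun _ => 0,
      inferInstance, fun j hj => absurd hj (NN.not_lt_zero' j), fun _ => (isum_zero _).symm⟩ 1
      fun x hx => ?_
    rw [add_zero]
    exact abs_le_one_iff_mul_self_le_one.1 ((h.le f x hx).trans_eq hf)

/-- From weights to multiplicities. -/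
theorem Ev.rep (h : Ev N B a ν) (rc : NN N →+* R) (d : DefF N rc)
    (ceil : ∀ t : R, 0 ≤ t → ∃ k, t ≤ rc k ∧ rc k ≤ t + 1) {t : NN N → R} {F : NN N → D}
    [Intl N t] [Intl N F] (n : NN N) : (∀ j, j < n → 0 ≤ t j ∧ ν (F j) = 1) →
    ∃ M : NN N, ∃ G : NN N → D, Intl N G ∧ (∀ j, j < M → ν (G j) = 1) ∧ isum t n ≤ rc M ∧ ∀ x, B x →
      isum (fun j => a (G j) x ^ 2) M ≤ isum (fun j => t j * a (F j) x ^ 2) n + rc n := by
  classical
  have := h.da
  have := h.dν
  have := h.dB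
  have cs : ∀ (c : R) k, isum (fun _ => c) k = rc k * c := fun c =>
    NN.ind (by fun_prop) (by simp) fun k ih => by
      rw [isum_succ (by fun_prop), ih, map_add, map_one, add_one_mul]
  refine NN.ind (P := fun n => (∀ j, j < n → 0 ≤ t j ∧ ν (F j) = 1) →
    ∃ M : NN N, ∃ G : NN N → D, Intl N G ∧ (∀ j, j < M → ν (G j) = 1) ∧ isum t n ≤ rc M ∧ ∀ x, B x →
      isum (fun j => a (G j) x ^ 2) M ≤ isum (fun j => t j * a (F j) x ^ 2) n + rc n)
    (by fun_prop) (fun _ => ⟨0, F, inferInstance, fun j hj => absurd hj (NN.not_lt_zero' j),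
      by simp, by simp⟩) (fun n ih c => ?_) n
  obtain ⟨M, G, hG, h1, h2, h3⟩ := ih fun j hj => c j (hj.trans (NN.lt_add_one n))
  obtain ⟨c1, c2⟩ := c n (NN.lt_add_one n)
  obtain ⟨k, k1, k2⟩ := ceil _ c1
  refine ⟨M + k, fun j => if j < M then G j else F n, DefF.toIntl (by fun_prop), fun j _ => ?_, ?_,
    fun x hx => ?_⟩
  · beta_reduce
    split_ifs with b
    exacts [h1 j b, c2]
  · rw [isum_succ (by fun_prop), map_add]
    exact add_le_add h2 k1
  · rw [isum_add_range (by fun_prop), isum_succ (by fun_prop), map_add, map_one,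
      isum_congr (g := fun j => a (G j) x ^ 2) (by fun_prop) (by fun_prop)
        fun i hi => by simp only [if_pos hi]]
    simp only [if_neg (not_lt.2 le_self_add), cs]
    have h4 := (sq_le_one_iff_abs_le_one _).2 ((h.le _ x hx).trans_eq c2)
    nlinarith [h3 x hx, mul_le_mul_of_nonneg_right k2 (sq_nonneg (a (F n) x))]

/-- The weak theorem of Dvoretzky and Rogers. -/
theorem Ev.te (h : Ev N B a ν) (rc : NN N →+* R) (d : DefF N rc)
    (ceil : ∀ t : R, 0 ≤ t → ∃ k, t ≤ rc k ∧ rc k ≤ t + 1) (r0 : ∀ k, 0 ≤ rc k) {η : R}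
    (hη : 0 < η) : ∃ M : NN N, ∃ G : NN N → D, 0 < M ∧ Intl N G ∧ (∀ j, j < M → ν (G j) = 1) ∧
      ∀ x, B x → isum (fun j => a (G j) x ^ 2) M ≤ η * rc M := by
  have := h.da
  have pos : ∀ {M}, 0 < rc M → 0 < M := fun {M} c => pos_iff_ne_zero.2 fun e => by simp [e] at c
  have hε := half_pos hη
  by_cases H : ∀ (n : NN N) (t : NN N → R) (F : NN N → D), Intl N t →
    Intl N F → (∀ j, j < n → 0 ≤ t j ∧ ν (F j) = 1) →
    ∃ x, B x ∧ 0 ≤ isum (fun j => t j * (a (F j) x ^ 2 - η / 2)) n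
  · obtain ⟨β, k⟩ := h.ip H
    have h0 : 0 < (η * (η / 2))⁻¹ := by positivity
    obtain ⟨M, m, -⟩ := ceil _ h0.le
    obtain ⟨G, hG, h1, h2⟩ := k.gs h hε M
    refine ⟨M, G, pos (h0.trans_le m), hG, h1, fun x hx => le_of_mul_le_mul_left
      ((k.bessel h hε h1 h2 hx).trans ?_) hε⟩
    rw [inv_le_iff_one_le_mul₀' (by positivity)] at m
    linarith
  push Not at H
  obtain ⟨n, t, F, ht, hF, c, H⟩ := H
  have e : ∀ x, B x → isum (fun j => t j * a (F j) x ^ 2) n < η / 2 * isum t n := fun x hx => by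
    have := H x hx
    simp only [mul_sub] at this
    rwa [isum_sub (by fun_prop) (by fun_prop), ← isum_mul _ (by fun_prop), sub_neg,
      mul_comm] at this
  obtain ⟨x₀, h₀⟩ := h.ne
  have W : 0 < η / 2 * isum t n := (isum_nonneg (by fun_prop) fun j hj =>
    mul_nonneg (c j hj).1 (sq_nonneg _)).trans_lt (e x₀ h₀)
  obtain ⟨l, l0, hl⟩ : ∃ l : R, 0 < l ∧ l * (η / 2 * isum t n) = rc n + 1 :=
    ⟨(rc n + 1) / _, div_pos (by linarith [r0 n]) W, div_mul_cancel₀ _ W.ne'⟩
  have : Intl N fun j => l * t j := DefF.toIntl (by fun_prop)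
  obtain ⟨M, G, hG, h1, h2, h3⟩ := h.rep rc d ceil (t := fun j => l * t j) (F := F) n
    fun j hj => ⟨mul_nonneg l0.le (c j hj).1, (c j hj).2⟩
  rw [← mul_isum _ (by fun_prop)] at h2
  have h4 := mul_le_mul_of_nonneg_left h2 hε.le
  refine ⟨M, G, pos ((mul_pos_iff_of_pos_left hε).1 (by linarith [r0 n])), hG, h1,
    fun x hx => (h3 x hx).trans ?_⟩
  simp only [mul_assoc]
  rw [← mul_isum _ (by fun_prop)]
  linarith [mul_lt_mul_of_pos_left (e x hx) l0]

end Te

end Vale.Agent.P129B
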