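import Vale.Agent.P129BT.Mean

/-!
# A generalised limit of the bounded internal sequences
-/

namespace Vale.Agent.P129B

universe v

variable {N : Type v} [ZM N] {R : Type*} [Field R] [LinearOrder R] [IsStrictOrderedRing R]
  [Coded N R] [Tot N R] [DefAdd N R] [DefSub N R] [DefMul N R] [DefLE N R]

/-- A generalised limit of the bounded internal sequences. -/
theorem exists_limit_of_lub
    (lub : ∀ S : Set R, Intl N S → S.Nonempty → BddAbove S → ∃ c, IsLUB S c) :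
    ∃ L : (NN N → R) → R, DefF N L ∧
      (∀ u w : NN N → R, Intl N u → Intl N w → (∃ C, ∀ n, |u n| ≤ C) → (∃ C, ∀ n, |w n| ≤ C) →
        L (fun n => u n + w n) = L u + L w) ∧
      (∀ (c : R) (u : NN N → R), Intl N u → (∃ C, ∀ n, |u n| ≤ C) →
        L (fun n => c * u n) = c * L u) ∧
      ∀ u : NN N → R, Intl N u → (∃ C, ∀ n, |u n| ≤ C) →
        (∀ b : R, (∃ m, ∀ n, m ≤ n → u n ≤ b) → L u ≤ b) ∧
          ∀ b : R, (∃ m, ∀ n, m ≤ n → b ≤ u n) → b ≤ L u := by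
  classical
  obtain ⟨L, h1, h2, h3, h4⟩ := exists_mean (N := N) lub (B := fun _ : NN N => True)
    (C := fun u => ∃ m, ∀ n, m ≤ n → u n = 0) (by fun_prop) (by fun_prop) ⟨0, fun _ _ => rfl⟩
    (fun u w _ _ ⟨m, hm⟩ ⟨k, hk⟩ => ⟨max m k, fun n hn => show u n + w n = 0 by
      rw [hm n (le_of_max_le_left hn), hk n (le_of_max_le_right hn), add_zero]⟩)
    (fun t u _ _ ⟨m, hm⟩ => ⟨m, fun n hn => show t * u n = 0 by rw [hm n hn, mul_zero]⟩)
    fun u _ ⟨m, hm⟩ => ⟨m, trivial, (hm m le_rfl).ge⟩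
  have bd : ∀ {u : NN N → R}, Intl N u → (∃ C, ∀ n, |u n| ≤ C) → BdOn N (fun _ => True) u :=
    fun a b => ⟨a, b.imp fun _ c n _ => c n⟩
  have up : ∀ u, BdOn N (fun _ => True) u → ∀ b : R, (∃ m, ∀ n, m ≤ n → u n ≤ b) → L u ≤ b := by
    rintro u a b ⟨m, hm⟩
    have := a.1
    refine h4 u a (fun n => if m ≤ n then 0 else b - u n) (DefF.toIntl (by fun_prop))
      ⟨m, fun n hn => if_pos hn⟩ b fun n _ => ?_
    split_ifs with c
    · rw [add_zero]
      exact hm n c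
    · rw [add_sub_cancel]
  refine ⟨L, h1, fun u w a b c d => h2 u w (bd a c) (bd b d), fun c u a b => h3 c u (bd a b),
    fun u a c => ⟨up u (bd a c), fun b ⟨m, hm⟩ => ?_⟩⟩
  have := up _ ((bd a c).mul (-1)) (-b) ⟨m, fun n hn => by linarith [hm n hn]⟩
  rw [h3 _ _ (bd a c)] at this
  linarith

end Vale.Agent.P129B
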