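import Vale.Agent.P129BZ.HB
import Vale.Agent.P129B.Choice

/-!
# Means on the bounded internal functions
-/

namespace Vale.Agent.P129B

universe v

variable {N : Type v} [ZM N] {R : Type*} [Field R] [LinearOrder R] [IsStrictOrderedRing R]
  [Coded N R] [Tot N R] [DefAdd N R] [DefSub N R] [DefMul N R] [DefLE N R]
  {X : Type*} [Coded N X] [Tot N X]

variable (N) in
/-- internal functions which are bounded on `B` -/
def BdOn (B : X → Prop) (h : X → R) : Prop := Intl N h ∧ ∃ c, ∀ x, B x → |h x| ≤ c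

omit [DefSub N R] [DefMul N R] [DefLE N R] in
theorem BdOn.add {B : X → Prop} {h k : X → R} (a : BdOn N B h) (b : BdOn N B k) :
    BdOn N B fun x => h x + k x := by
  obtain ⟨a, c, hc⟩ := a
  obtain ⟨b, d, hd⟩ := b
  exact ⟨DefF.toIntl (by fun_prop), c + d, fun x hx =>
    (abs_add_le _ _).trans (add_le_add (hc x hx) (hd x hx))⟩

omit [DefSub N R] [DefAdd N R] [DefLE N R] in
theorem BdOn.mul {B : X → Prop} {h : X → R} (t : R) (a : BdOn N B h) :
    BdOn N B fun x => t * h x := by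
  obtain ⟨a, c, hc⟩ := a
  exact ⟨DefF.toIntl (by fun_prop), |t| * c, fun x hx =>
    (abs_mul _ _).trans_le (mul_le_mul_of_nonneg_left (hc x hx) (abs_nonneg t))⟩

/-- A mean which is nonnegative on a cone of functions each of which has a nonnegative value. -/
theorem exists_mean (lub : ∀ S : Set R, Intl N S → S.Nonempty → BddAbove S → ∃ c, IsLUB S c)
    {B : X → Prop} (hB : DefF N B) {C : (X → R) → Prop} (hC : DefF N C) (C0 : C fun _ => 0)
    (Cadd : ∀ u w, Intl N u → Intl N w → C u → C w → C fun x => u x + w x)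
    (Cmul : ∀ t u, 0 < t → Intl N u → C u → C fun x => t * u x)
    (Cpos : ∀ u, Intl N u → C u → ∃ x, B x ∧ 0 ≤ u x) :
    ∃ L : (X → R) → R, DefF N L ∧
      (∀ h k, BdOn N B h → BdOn N B k → L (fun x => h x + k x) = L h + L k) ∧
      (∀ t h, BdOn N B h → L (fun x => t * h x) = t * L h) ∧
      ∀ h, BdOn N B h → ∀ u, Intl N u → C u → ∀ b, (∀ x, B x → h x + u x ≤ b) → L h ≤ b := by
  classical
  have := defNeg_of_add (N := N) (β := R)
  have : DefAdd N (X → R) := ⟨by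
    have : DefF N (fun p : (X → R) × (X → R) => fun a => p.1 a + p.2 a) := by fun_prop
    exact this⟩
  have : DefSMul N R (X → R) := ⟨by
    have : DefF N (fun p : R × (X → R) => fun a => p.1 * p.2 a) := by fun_prop
    exact this⟩
  let S : (X → R) → R → Prop := fun h b => ∃ u, Intl N u ∧ C u ∧ ∀ x, B x → h x + u x ≤ b
  have hS : DefF N fun p : (X → R) × R => S p.1 p.2 := by
    simp only [S]
    fun_prop
  have hV : Intl N {h : X → R | BdOn N B h} := intl_setOf (by fun_prop)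
  have ex : ∀ h, BdOn N B h → ∃ s, (∀ b, S h b → s ≤ b) ∧ ∀ t, (∀ b, S h b → t ≤ b) → t ≤ s := by
    rintro h ⟨hI, c, hc⟩
    obtain ⟨s, s1, s2⟩ := lub {t | ∀ b, S h b → t ≤ b} (intl_setOfT (by fun_prop))
      ⟨-c, fun b ⟨u, u1, u2, u3⟩ => by
        obtain ⟨x, x1, x2⟩ := Cpos u u1 u2
        linarith [u3 x x1, hc x x1, neg_abs_le (h x)]⟩
      ⟨c, fun t ht => ht c ⟨_, inferInstance, C0, fun x hx => by
        linarith [hc x hx, le_abs_self (h x)]⟩⟩
    exact ⟨s, fun b hb => s2 fun t ht => ht b hb, s1⟩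
  obtain ⟨p, hp, p0⟩ := exists_defF_choice (N := N) (R := fun (h : X → R) (s : R) =>
    h ∈ {h : X → R | BdOn N B h} → (∀ b, S h b → s ≤ b) ∧ ∀ t, (∀ b, S h b → t ≤ b) → t ≤ s)
    (by fun_prop) fun h _ => by
      by_cases a : BdOn N B h
      · exact (ex h a).imp fun s hs => ⟨inferInstance, fun _ => hs⟩
      · exact ⟨0, inferInstance, fun b => absurd b a⟩
  have p1 : ∀ h, BdOn N B h → ∀ b, S h b → p h ≤ b := fun h a => (p0 h a.1 a).1
  have p2 : ∀ h, BdOn N B h → ∀ t, (∀ b, S h b → t ≤ b) → t ≤ p h := fun h a => (p0 h a.1 a).2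
  have sm : ∀ t : R, 0 < t → ∀ h, BdOn N B h → p (t • h) ≤ t * p h := fun t ht h a => by
    rw [← inv_mul_le_iff₀ ht]
    refine p2 h a _ fun b ⟨u, u1, u2, u3⟩ => (inv_mul_le_iff₀ ht).2 (p1 _ (a.mul t) _
      ⟨_, DefF.toIntl (by fun_prop), Cmul t u ht u1 u2, fun x hx => ?_⟩)
    exact (mul_add _ _ _).symm.trans_le (mul_le_mul_of_nonneg_left (u3 x hx) ht.le)
  have key := hahn_banach_of_lub lub {h : X → R | BdOn N B h}
    (fun h a k b => BdOn.add a b) (fun t h a => BdOn.mul t a) p hp (fun h a k b => ?_)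
    (fun t ht h a => (sm t ht h a).antisymm ?_) (x₀ := fun _ => 0)
    ⟨inferInstance, 0, fun _ _ => abs_zero.le⟩
  · obtain ⟨L, h1, h2, h3, h4, -⟩ := key
    exact ⟨L, h1, fun h k a b => h2 h a k b, h3,
      fun h a u u1 u2 b hb => (h4 h a).trans (p1 h a b ⟨u, u1, u2, hb⟩)⟩
  · refine sub_le_iff_le_add.1 (p2 h a _ fun c ⟨u, u1, u2, u3⟩ => sub_le_comm.1
      (p2 k b _ fun d ⟨w, w1, w2, w3⟩ => sub_le_iff_le_add'.2 (p1 _ (BdOn.add a b) _
        ⟨_, DefF.toIntl (by fun_prop), Cadd u w u1 w1 u2 w2, fun x hx => ?_⟩)))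
    linarith [u3 x hx, w3 x hx]
  · have := sm t⁻¹ (inv_pos.2 ht) _ (BdOn.mul t a)
    rwa [show t⁻¹ • (fun x => t * h x) = h from inv_smul_smul₀ ht.ne' h, le_inv_mul_iff₀ ht] at this

end Vale.Agent.P129B
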